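import Vale.Agent.P210Z57.Defs
import Mathlib.Geometry.Manifold.VectorBundle.CovariantDerivative.Torsion
import Mathlib.Geometry.Manifold.VectorBundle.CovariantDerivative.Metric
import Mathlib.Analysis.InnerProductSpace.PiL2

/-! The Levi-Civita connection, its curvature tensor, scalar curvature and geodesics. -/

namespace Vale.Agent.P210I

open scoped Manifold ContDiff Topology
open Bundle VectorField Vale.Agent.P234Z57

noncomputable section

/-- 4-linear forms on a real vector space -/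
abbrev Lin4 (V : Type) [AddCommGroup V] [Module ℝ V] : Type :=
  V →ₗ[ℝ] V →ₗ[ℝ] V →ₗ[ℝ] V →ₗ[ℝ] ℝ

/-- the value `R(a, b, c, d)` -/
def ev {V : Type} [AddCommGroup V] [Module ℝ V] (R : Lin4 V) (a b c d : V) : ℝ := R a b c d

/-- `s = ∑ R(bᵢ, bⱼ, bⱼ, bᵢ)` for every orthonormal basis `b`. -/
def IsTrace {V : Type} [NormedAddCommGroup V] [InnerProductSpace ℝ V] (R : Lin4 V) (s : ℝ) :
    Prop :=
  ∀ (k : ℕ) (b : OrthonormalBasis (Fin k) ℝ V), s = ∑ i, ∑ j, ev R (b i) (b j) (b j) (b i)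

variable (E : Type) [NormedAddCommGroup E] [NormedSpace ℝ E]
  {M : Type} [TopologicalSpace M] [ChartedSpace E M]

/-- the tangent space at `x` -/
abbrev Tan (x : M) : Type := TangentSpace 𝓘(ℝ, E) x

variable (M)

/-- fields of 4-linear forms on the tangent spaces -/
abbrev Four : Type := (x : M) → Lin4 (Tan E x)

variable [IsManifold 𝓘(ℝ, E) ∞ M]

/-- connections on the tangent bundle -/
abbrev Conn : Type := CovariantDerivative 𝓘(ℝ, E) E (Tan E : M → Type)

/-- smooth vector fields -/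
abbrev Vec : Type := Cₛ^∞⟮𝓘(ℝ, E); E, (Tan E : M → Type)⟯

variable {E M}

/-- The two connections have the same values on smooth vector fields. -/
def Agree (cov' cov : Conn E M) : Prop := ∀ Y : Vec E M, cov' Y = cov Y

/-- `f' Y + f ∇_(c') Y` at time `t`: the covariant derivative of `f Y` along `c` -/
def dt (cov : Conn E M) (c : ℝ → M) (f : ℝ → ℝ) (Y : Vec E M) (t : ℝ) : Tan E (c t) :=
  deriv f t • Y (c t) + f t • cov Y (c t) (vel E c t)

/-- `w` is the acceleration `D_t c'` at time `t`: `c' = ∑ fᵢ Yᵢ` along `c` near `t`, and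
`w = ∑ (fᵢ' Yᵢ + fᵢ ∇_(c') Yᵢ)`. -/
def IsAcc (cov : Conn E M) (c : ℝ → M) (t : ℝ) (w : Tan E (c t)) : Prop :=
  ∃ (k : ℕ) (Y : Fin k → Vec E M) (f : Fin k → ℝ → ℝ), (∀ i, DifferentiableAt ℝ (f i) t) ∧
    (∀ᶠ s in 𝓝 t, vel E c s = ∑ i, f i s • Y i (c s)) ∧ w = ∑ i, dt cov c (f i) (Y i) t

variable (E) in
omit [IsManifold 𝓘(ℝ, E) ∞ M] in
/-- `c` is a smooth curve. -/
def SmoothCurve (c : ℝ → M) : Prop := ContMDiff 𝓘(ℝ, ℝ) 𝓘(ℝ, E) ∞ c

/-- Every tangent vector is the initial velocity of a geodesic (a smooth curve with `D_t c' = 0`)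
defined on the whole line. -/
def GeodComplete (cov : Conn E M) : Prop :=
  ∀ (x : M) (v : Tan E x), ∃ c : ℝ → M,
    SmoothCurve E c ∧ (∀ t, IsAcc cov c t 0) ∧ Starts c x v

variable [RiemannianBundle fun x : M => Tan E x]

/-- `g(∇_X ∇_Y Z - ∇_Y ∇_X Z - ∇_[X,Y] Z, W)` at `x` -/
def curv (cov : Conn E M) (X Y Z W : (q : M) → Tan E q) (x : M) : ℝ :=
  inner ℝ (cov (fun q => cov Z q (Y q)) x (X x) - cov (fun q => cov Z q (X q)) x (Y x) -
    cov Z x (mlieBracket 𝓘(ℝ, E) X Y x)) (W x)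

/-- `Rm` is the curvature tensor of the connection. -/
def IsCurv (cov : Conn E M) (Rm : Four E M) : Prop :=
  ∀ (X Y Z W : Vec E M) (x : M), ev (Rm x) (X x) (Y x) (Z x) (W x) = curv cov X Y Z W x

omit [IsManifold 𝓘(ℝ, E) ∞ M] in
/-- `S` is the scalar curvature of `Rm`. -/
def IsScal (Rm : Four E M) (S : M → ℝ) : Prop := ∀ x : M, IsTrace (Rm x) (S x)

/-- A Levi-Civita connection: smooth, torsion free and compatible with the metric. -/
structure IsLeviCivita [FiniteDimensional ℝ E]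
    [IsContMDiffRiemannianBundle 𝓘(ℝ, E) ∞ E fun x : M => Tan E x] (cov : Conn E M) : Prop where
  smooth : cov.ContMDiffCovariantDerivative ∞
  torsion : cov.torsion = 0
  metric : CovariantDerivative.IsMetricCompatible (V := (Tan E : M → Type)) cov

end

end Vale.Agent.P210I
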