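import Vale.Agent.P210I97.Curv
import Vale.Agent.P234Z57.Geo

/-! The acceleration of a curve, and the geodesic equation in charts. -/

set_option maxSynthPendingDepth 3
set_option linter.unusedSectionVars false

namespace Vale.Agent.P210I

open scoped Manifold ContDiff Topology
open Bundle Filter VectorField IsManifold Vale.Agent.P211 Vale.Agent.P211.NN Vale.Agent.P211Z
  Vale.Agent.P253Lc Vale.Agent.P234Z57 Vale.Agent.P216.Chart

noncomputable section

variable {E : Type} [NormedAddCommGroup E] [NormedSpace ℝ E] [FiniteDimensional ℝ E]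
  {M : Type} [MetricSpace M] [ChartedSpace E M] [IsManifold 𝓘(ℝ, E) ∞ M]
  [RiemannianBundle fun x : M => Tan E x]
  [IsContMDiffRiemannianBundle 𝓘(ℝ, E) ∞ E fun x : M => Tan E x]
  [IsRiemannianManifold 𝓘(ℝ, E) M] {cov : Conn E M} {c : ℝ → M} {t : ℝ} {p x : M}

theorem d_curve (hc : SmoothCurve E c) (f : SF E M) (t : ℝ) :
    HasDerivAt (fun s => f (c s)) (mvfderiv 𝓘(ℝ, E) f (c t) (vel E c t)) t := by
  have h1 := (f.mdiff (c t)).hasMFDerivAt.comp t ((hc t).mdifferentiableAt (by simp)).hasMFDerivAt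
  let L : ℝ →L[ℝ] ℝ := (mvfderiv 𝓘(ℝ, E) f (c t)).comp (mfderiv 𝓘(ℝ, ℝ) 𝓘(ℝ, E) c t)
  have h2 : HasFDerivAt (fun s => f (c s)) L t := hasMFDerivAt_iff_hasFDerivAt.1 h1
  exact h2.hasDerivAt

theorem pair (h : IsLeviCivita cov) (hc : SmoothCurve E c) (Y W : Vec E M) (t : ℝ) :
    HasDerivAt (fun s => inner ℝ (Y (c s)) (W (c s)))
      (inner ℝ (cov Y (c t) (vel E c t)) (W (c t))
        + inner ℝ (Y (c t)) (cov W (c t) (vel E c t))) t := by
  obtain ⟨X, hX⟩ := exists_ext (E := E) (c t) (vel E c t)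
  have h1 := h.lc.metric X Y W (c t)
  rw [hX] at h1
  rw [← h1]
  exact d_curve hc (gVF Y W) t

theorem IsAcc.pair (h : IsLeviCivita cov) (hc : SmoothCurve E c) {w : Tan E (c t)}
    (hw : IsAcc cov c t w) (W : Vec E M) :
    HasDerivAt (fun s => inner ℝ (vel E c s) (W (c s)))
      (inner ℝ w (W (c t)) + inner ℝ (vel E c t) (cov W (c t) (vel E c t))) t := by
  obtain ⟨k, Y, f, hf, hv, rfl⟩ := hw
  have h1 := HasDerivAt.fun_sum (u := Finset.univ) fun i _ =>
    (hf i).hasDerivAt.fun_mul (P210I.pair h hc (Y i) W t)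
  have h2 : ∀ u, inner ℝ (vel E c t) u = ∑ i, f i t * inner ℝ (Y i (c t)) u := fun u => by
    rw [hv.self_of_nhds, sum_inner]
    exact Finset.sum_congr rfl fun i _ => real_inner_smul_left _ _ _
  refine (h1.congr_deriv ?_).congr_of_eventuallyEq ?_
  · rw [h2, sum_inner, ← Finset.sum_add_distrib]
    refine Finset.sum_congr rfl fun i _ => ?_
    rw [dt, inner_add_left, real_inner_smul_left, real_inner_smul_left]
    ring
  · filter_upwards [hv] with s hs
    rw [hs, sum_inner]
    exact Finset.sum_congr rfl fun i _ => real_inner_smul_left _ _ _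

/-- the coordinate field -/
def cf (p : M) (v : E) : Field E M := pull (chartAt E p) (cst v)

theorem ld (hx : x ∈ (chartAt E p).source) :
    IsLocalDiffeomorphAt 𝓘(ℝ, E) 𝓘(ℝ, E) ∞ (chartAt E p) x :=
  chart_ld (chart_mem_maximalAtlas p) hx

theorem sm_cf (hx : x ∈ (chartAt E p).source) (v : E) : Sm (cf p v) x :=
  Sm.pull (ld hx) (sm_cst v _)

theorem exists_cf (hx : x ∈ (chartAt E p).source) (v : E) :
    ∃ S : Vec E M, ∀ᶠ y in 𝓝 x, S y = cf p v y :=
  cut_section (E := E) ((chartAt E p).open_source.mem_nhds hx) fun _ hy =>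
    (sm_cf hy v).contMDiffWithinAt

theorem inner_cf (hx : x ∈ (chartAt E p).source) (v w : E) :
    inner ℝ (cf p v x) (cf p w x) = coef p v w (chartAt E p x) := by
  have h : ∀ y, y = x → inner ℝ (cf p v x) (cf p w x) = inner ℝ (cf p v y) (cf p w y) := by
    rintro y rfl
    rfl
  rw [h _ ((chartAt E p).left_inv hx)]
  unfold cf
  rw [pull_cst (chart_mem_maximalAtlas p) ((chartAt E p).map_source hx),
    pull_cst (chart_mem_maximalAtlas p) ((chartAt E p).map_source hx)]
  rfl

theorem vel_cf (hc : SmoothCurve E c) (ht : c t ∈ (chartAt E p).source) :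
    vel E c t = cf p (deriv (crd E p c) t) (c t) :=
  (((inv_of_ld (ld ht)).inverse_apply_eq).2 (deriv_crd hc ht)).symm

theorem cd_crd (hc : SmoothCurve E c) (ht : c t ∈ (chartAt E p).source) :
    ContDiffAt ℝ ∞ (crd E p c) t :=
  ((contMDiffAt_extChartAt' ht).comp t (hc t)).contDiffAt

theorem acc_exu (h : IsLeviCivita cov) (hc : SmoothCurve E c) (t : ℝ) :
    ∃! w, IsAcc cov c t w := by
  have ht := mem_chart_source E (c t)
  choose S hS using exists_cf ht
  let b := Module.finBasis ℝ E
  have hd := (deriv_smooth (cd_crd hc ht)).differentiableAt (by simp)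
  have key : ∃ w, IsAcc cov c t w := by
    refine ⟨_, _, fun i => S (b i), fun i s => b.coord i (deriv (crd E (c t) c) s),
      fun i => ((b.coord i).toContinuousLinearMap.differentiableAt.comp t hd :), ?_, rfl⟩
    filter_upwards [(hc t).continuousAt.eventually (chart_source_mem_nhds E (c t)),
      (hc t).continuousAt.eventually (eventually_all.2 fun i => hS (b i))] with s h1 h2
    let L : E →L[ℝ] Tan E (c s) := (dm E (chartAt E (c t)) (c s)).inverse
    have h3 : ∀ v, cf (c t) v (c s) = L v := fun _ => rfl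
    rw [vel_cf hc h1, h3, ← b.sum_repr (deriv (crd E (c t) c) s), map_sum]
    refine Finset.sum_congr rfl fun i _ => ?_
    rw [map_smul, h2, h3, b.sum_repr]
    rfl
  obtain ⟨w, hw⟩ := key
  refine ⟨w, hw, fun w' hw' => ext_inner_right ℝ fun u => ?_⟩
  obtain ⟨W, rfl⟩ := exists_ext (E := E) (c t) u
  exact add_right_cancel ((hw'.pair h hc W).unique (hw.pair h hc W))

theorem diff_metric (hx : x ∈ (chartAt E p).source) :
    DifferentiableAt ℝ (metric (E := E) p) (chartAt E p x) :=
  ((metric_contDiffOn p).contDiffAt ((isOpen_dom (E := E) p).mem_nhds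
    (phi_mem_dom p (by rwa [extChartAt_source])))).differentiableAt (by simp)

theorem dg_cf (hx : x ∈ (chartAt E p).source) (u v w : E) :
    P211W.dg (cf p u) (cf p v) (cf p w) x = fderiv ℝ (metric p) (chartAt E p x) u v w := by
  have hg : HasFDerivAt (fun y => metric p y v w)
      (((fderiv ℝ (metric p) (chartAt E p x)).flip v).flip w) (chartAt E p x) := by
    simpa using ((diff_metric hx).hasFDerivAt.clm_apply (hasFDerivAt_const v _)).clm_apply
      (hasFDerivAt_const w _)
  have h1 := hg.hasMFDerivAt.comp x ((ld hx).mdifferentiableAt (by simp)).hasMFDerivAt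
  have h2 := h1.congr_of_eventuallyEq (f₁ := fun y => inner ℝ (cf p v y) (cf p w y)) (by
    filter_upwards [(chartAt E p).open_source.mem_nhds hx] with y hy
    exact (inner_cf hy v w).trans (coef_eq p v w _))
  have h3 : dm E (chartAt E p) x (cf p u x) = u := dm_pull (ld hx) (cst u)
  unfold P211W.dg mvfderiv
  rw [h2.mfderiv]
  exact congrArg (fun a : E => fderiv ℝ (metric p) (chartAt E p x) a v w) h3

theorem cf_bracket (hx : x ∈ (chartAt E p).source) (u v : E) :
    mlieBracket 𝓘(ℝ, E) (cf p u) (cf p v) x = 0 := by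
  unfold cf
  rw [pull_bracket (ld hx) (sm_cst u _).md (sm_cst v _).md]
  have h : mlieBracket 𝓘(ℝ, E) (cst u) (cst v) (chartAt E p x) = 0 := by
    rw [← mlieBracketWithin_univ, mlieBracketWithin_eq_lieBracketWithin]
    change fderivWithin ℝ (fun _ : E => v) Set.univ (chartAt E p x) u
      - fderivWithin ℝ (fun _ : E => u) Set.univ (chartAt E p x) v = 0
    simp
  change (dm E (chartAt E p) x).inverse (mlieBracket 𝓘(ℝ, E) (cst u) (cst v) (chartAt E p x)) = 0
  rw [h, map_zero]

theorem koszul_cf (h : IsLeviCivita cov) (hx : x ∈ (chartAt E p).source) (u w : E) :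
    inner ℝ (cf p u x) (cov (cf p w) x (cf p u x))
      = fderiv ℝ (metric p) (chartAt E p x) w u u / 2 := by
  rw [real_inner_comm,
    P211W.koszul h.torsion h.metric (sm_cf hx u).md (sm_cf hx w).md (sm_cf hx u).md]
  unfold P211W.kz P211W.bg
  rw [cf_bracket hx, cf_bracket hx, cf_bracket hx, inner_zero_left, inner_zero_left,
    P211W.dg_comm _ (cf p w), dg_cf hx, dg_cf hx]
  ring

theorem d_bil {G : E → E →L[ℝ] E →L[ℝ] ℝ} {y : ℝ → E} (hy : ContDiffAt ℝ ∞ y t)
    (hG : DifferentiableAt ℝ G (y t)) (w : E) : HasDerivAt (fun s => G (y s) (deriv y s) w)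
      (G (y t) (deriv (deriv y) t) w + fderiv ℝ G (y t) (deriv y t) (deriv y t) w) t := by
  have hx := (hy.differentiableAt (by simp)).hasDerivAt
  have hv := ((deriv_smooth hy).differentiableAt (by simp)).hasDerivAt
  have h := ((hG.hasFDerivAt.comp_hasDerivAt t hx).clm_apply hv).clm_apply (hasDerivAt_const t w)
  refine h.congr_deriv ?_
  simp only [add_apply, map_zero, add_zero, Function.comp_apply]
  exact add_comm _ _

theorem isGeodesic (h : IsLeviCivita cov) (hc : SmoothCurve E c) (h0 : ∀ t, IsAcc cov c t 0) :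
    IsGeodesic E c := by
  refine ⟨hc, fun p t ht w => ?_⟩
  have hz : crd E p c t ∈ dom E p := phi_mem_dom p (by rwa [extChartAt_source])
  refine (eq_iff p hz _ _ w).2 ?_
  obtain ⟨W, hW⟩ := exists_cf ht w
  have h1 := (h0 t).pair h hc W
  have h2 := d_bil (G := metric p) (cd_crd hc ht) (diff_metric ht) w
  have h3 : (fun s => inner ℝ (vel E c s) (W (c s)))
      =ᶠ[𝓝 t] fun s => metric p (crd E p c s) (deriv (crd E p c) s) w := by
    filter_upwards [(hc t).continuousAt.eventually ((chartAt E p).open_source.mem_nhds ht),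
      (hc t).continuousAt.eventually hW] with s a1 a2
    rw [vel_cf hc a1, a2, inner_cf a1, coef_eq]
    rfl
  have h4 : cov W (c t) = cov (cf p w) (c t) :=
    cov.isCovariantDerivativeOnUniv.congr_of_eventuallyEq (VF.mdiff W _) (sm_cf ht w).md
      univ_mem hW
  rw [inner_zero_left, zero_add, h4, vel_cf hc ht, koszul_cf h ht] at h1
  exact (h2.congr_of_eventuallyEq h3).unique h1

end

end Vale.Agent.P210I
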