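import Vale.Agent.P210I97.Geo

/-! From the intrinsic hypotheses to the hypotheses in charts. -/

namespace Vale.Agent.P210I

open Bundle
open scoped Manifold ContDiff
open Vale.Agent.P210Z57

theorem main_of (hm : ∀ n : ℕ, 3 ≤ n → ∃ C : ℝ,
    ∀ (E : Type) [NormedAddCommGroup E] [NormedSpace ℝ E] [FiniteDimensional ℝ E]
      (M : Type) [TopologicalSpace M] [T2Space M] [ConnectedSpace M] [ChartedSpace E M]
      [RiemannianBundle (fun x : M => TangentSpace 𝓘(ℝ, E) x)] [IsManifold 𝓘(ℝ, E) ∞ M]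
      [IsContMDiffRiemannianBundle 𝓘(ℝ, E) ∞ E (fun x : M => TangentSpace 𝓘(ℝ, E) x)],
      Module.finrank ℝ E = n → MetricComplete E M ∨ P210Z57.GeodComplete E M → ScalGE E M 1 →
      (∃ (V : Type) (K : PreAbstractSimplicialComplex V) (f : M → P210.Realization K),
        (∀ s ∈ K.faces, s.card ≤ n - 2 + 1) ∧ Continuous f ∧
          ∀ y, diam E (f ⁻¹' {y}) ≤ ENNReal.ofReal C) ∧
      UW E M (n - 2) ≤ ENNReal.ofReal C) : ∀ n : ℕ, 3 ≤ n → ∃ C : ℝ,
    ∀ (E : Type) [NormedAddCommGroup E] [NormedSpace ℝ E] [FiniteDimensional ℝ E]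
      (M : Type) [TopologicalSpace M] [T2Space M] [ConnectedSpace M] [ChartedSpace E M]
      [IsManifold 𝓘(ℝ, E) ∞ M] [RiemannianBundle fun x : M => Tan E x]
      [IsContMDiffRiemannianBundle 𝓘(ℝ, E) ∞ E fun x : M => Tan E x],
      Module.finrank ℝ E = n → (∃ cov : Conn E M, IsLeviCivita cov) ∧
      ∀ cov : Conn E M, IsLeviCivita cov →
        (∀ cov' : Conn E M, IsLeviCivita cov' → Agree cov' cov) ∧
        (∀ c : ℝ → M, SmoothCurve E c → ∀ t, ∃! w, IsAcc cov c t w) ∧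
        (∃! Rm, IsCurv cov Rm) ∧
        ∀ Rm, IsCurv cov Rm → (∃! S, IsScal Rm S) ∧
          ∀ S, IsScal Rm S → (∀ x, 1 ≤ S x) → MetricComplete E M ∨ P210I.GeodComplete cov →
            (∃ (V : Type) (K : PreAbstractSimplicialComplex V) (f : M → P210.Realization K),
              (∀ s ∈ K.faces, s.card ≤ n - 2 + 1) ∧ Continuous f ∧
                ∀ y, diam E (f ⁻¹' {y}) ≤ ENNReal.ofReal C) ∧
            UW E M (n - 2) ≤ ENNReal.ofReal C := by
  intro n hn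
  obtain ⟨C, hC⟩ := hm n hn
  refine ⟨C, fun E _ _ _ M _ _ _ _ _ _ _ hE => ⟨exists_lc, fun cov h => ?_⟩⟩
  obtain ⟨mM, rfl, rM⟩ := with_metric (E := E) (M := M)
  have : IsRiemannianManifold 𝓘(ℝ, E) M := ⟨rM⟩
  refine ⟨fun cov' h' Y => lc_unique h h' Y, fun c hc t => acc_exu h hc t, curv_exu h,
    fun Rm hR => ⟨scal_exu Rm, fun S hS h1 hc => hC E M hE (hc.imp_right fun hg x v => ?_)
      (scalGE h hR hS h1)⟩⟩
  obtain ⟨c, h2, h3, h4⟩ := hg x v
  exact ⟨c, isGeodesic h h2 h3, h4⟩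

end Vale.Agent.P210I
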